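import Vale.Agent.P250.PinB
import Vale.Agent.P250.Cmp
import Vale.Agent.P250.Ua
import Vale.Agent.P250.Ub
import Vale.Agent.P250.AdmB
import Vale.Agent.P250.Jac
import Vale.Agent.P250.Ind

open scoped ContDiff
open Set Complex

namespace Vale.Agent.Results.P250.Counter

open Vale.Agent.P255 Vale.Agent.P250

theorem result : ∃ (D : Set ((ℂ × ℂ) × ℂ))
    (G : (ℂ × ℂ) × ℂ → (ℂ × ℂ) × ℂ →L[ℝ] (ℂ × ℂ) × ℂ →L[ℝ] ℝ),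
    IsOpen D ∧ SimplyConnectedSpace D ∧
    ContDiffOn ℝ ∞ G D ∧ (∀ y ∈ D, ∀ u v, G y u v = G y v u) ∧
    (∀ y ∈ D, ∀ u, u ≠ 0 → 0 < G y u u) ∧
    (∀ y ∈ D, ∀ u v, G y (I • u) (I • v) = G y u v) ∧
    (∀ y ∈ D, ∀ u v w, fderiv ℝ G y w (I • u) v + fderiv ℝ G y u (I • v) w
      + fderiv ℝ G y v (I • w) u = 0) ∧
    (∀ p ∈ D, ∀ v, ∃ γ : ℝ → (ℂ × ℂ) × ℂ, ContDiff ℝ 2 γ ∧ (∀ t, γ t ∈ D) ∧ γ 0 = p ∧
      deriv γ 0 = v ∧ ∀ t, cov G γ (deriv γ) t = 0) ∧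
    (∃ a b : ℝ, 0 < a ∧ a ≤ b ∧ ∀ y ∈ D, ∀ u v,
      -b * (G y u u * G y v v - G y u v ^ 2) ≤ G y (curv G y u v v) u ∧
      G y (curv G y u v v) u ≤ -a * (G y u u * G y v v - G y u v ^ 2)) ∧
    ¬ ∃ (Ω : Set ((ℂ × ℂ) × ℂ)) (F F' : (ℂ × ℂ) × ℂ → (ℂ × ℂ) × ℂ),
      IsOpen Ω ∧ Bornology.IsBounded Ω ∧ DifferentiableOn ℂ F D ∧ DifferentiableOn ℂ F' Ω ∧
      MapsTo F D Ω ∧ MapsTo F' Ω D ∧ LeftInvOn F' F D ∧ RightInvOn F' F Ω := by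
  obtain ⟨u, hu⟩ := exists_U0
  obtain ⟨C, hC⟩ := hu.exists_U1
  obtain ⟨m, l, hm, hl, hno⟩ := no_J hu hC
  have hA := adm_phi hu hC hm hl
  obtain ⟨c, a, b, hc, ha, hab, hp⟩ := pinched hA
  have hL := lm_pot hA hc
  have hs := Phi_smooth hA.sm c
  refine ⟨DD (phi u m l), pot (Phi (phi u m l) c), hL.op, simply_DD hA.sm.continuousOn, hL.sm,
    hL.symm, hL.pos, fun y _ => pot_J _ y, fun y hy => pot_closed hL.op hs hy,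
    complete_DD hA hc, ⟨a, b, ha, hab, hp⟩, ?_⟩
  rintro ⟨Ω, F, F', h1, h2, h3, h4, h5, -, h7, -⟩
  exact hno (exists_J hA.sm.continuousOn h1 h2 h3 h4 h5 h7)

end Vale.Agent.Results.P250.Counter
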